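import Crest.Agent.X262.Deg38.Lin

/-!
# Row 262, G4 / DEG (helper38), part 4: the lines of the generic fibre of a formal family

* `Tw` : what is used of the fields of Puiseux series; `deg_of`.
-/

set_option autoImplicit false

open PowerSeries

noncomputable section

namespace Crest.Agent.X262.Deg38

open Crest.Agent.X277 Crest.Agent.X277.Lef
open Crest.Agent.X277.BD.Br (oP)
open Crest.Agent.X262.Top (Lines SmCub)
open Crest.Agent.X262.Alg44 (Red Pre Fam LFam)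
open Crest.Agent.X262.Rig38 (plk pv qv T3 Sy ten cub tri OnL)
open Crest.Agent.X262.Surf (B2)
open Crest.Agent.X262.Pui27 (Hn hm pu)

variable {F E : Type} [Field F] [Algebra ℂ F] [Field E] [Algebra ℂ E]
  {P : PModel ℂ F} {G₀ : MvPolynomial (Fin 6) ℂ} {L : Type} [Field L] [Algebra ℂ L]

/-- big fields over the surface and over its square -/
structure Tw (Λ : Lines G₀ F L) (ΩF ΩL : Type) [Field ΩF] [Algebra ℂ ΩF] [Field ΩL]
    [Algebra ℂ ΩL] where
  /-- the reduction -/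
  RF : Red F ΩF
  /-- the reduction -/
  RL : Red L ΩL
  /-- power series -/
  iF : F⟦X⟧ →+* ΩF
  /-- power series -/
  iL : L⟦X⟧ →+* ΩL
  /-- constant power series -/
  t : ℂ⟦X⟧ →+* ℂ
  /-- the first projection -/
  p : ΩF →ₐ[ℂ] ΩL
  /-- the swap -/
  s : ΩL →ₐ[ℂ] ΩL
  /-- the coefficients -/
  co : ΩL →+* Hn L
  iF_O : ∀ f, iF f ∈ RF.O ∧ RF.r (iF f) = constantCoeff f
  iL_O : ∀ f, iL f ∈ RL.O ∧ RL.r (iL f) = constantCoeff f
  iL_map : ∀ g, iL (map (algebraMap ℂ L) g) = algebraMap ℂ ΩL (t g)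
  p_i : ∀ f, p (iF f) = iL (map (Λ.ι : F →+* L) f)
  s_i : ∀ f, s (iL f) = iL (map (Λ.τ : L →+* L) f)
  s_s : ∀ x, s (s x) = x
  p_O : ∀ x ∈ RF.O, p x ∈ RL.O ∧ RL.r (p x) = Λ.ι (RF.r x)
  s_O : ∀ x ∈ RL.O, s x ∈ RL.O ∧ RL.r (s x) = Λ.τ (RL.r x)
  co_p : ∀ x, ∃ y, co (p x) = hm (Λ.ι : F →+* L) y
  co_s : ∀ x, co (s x) = hm (Λ.τ : L →+* L) (co x)
  co_i : ∀ f, co (iL f) = pu L 1 one_ne_zero f
  co_r : ∀ x ∈ RL.O, RL.r x = (co x).coeff 0

theorem deg_of {Λ : Lines G₀ F L} {ΩF ΩL : Type} [Field ΩF] [Algebra ℂ ΩF] [Field ΩL]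
    [Algebra ℂ ΩL] (W : Tw Λ ΩF ΩL) {T : Fam P} (N : LFam T Λ) (j : E →ₐ[ℂ] ΩF)
    (G : Pre (W.RF.comap j) P) (h : G.Sm) (b : B2 E) (hG : SmCub G₀)
    (hFS : ∀ f ∈ T.FS 1, ∃ s ∈ (oP (G.gen h)).Sec, j s = W.iF f) :
    ∃ (G' : MvPolynomial (Fin 6) ℂ) (L' : Type) (_ : Field L') (_ : Algebra ℂ L'),
      SmCub G' ∧ Nonempty (Lines G' E L') := by
  obtain ⟨β, hβ, eβ⟩ := hFS _ N.fsβ
  have β0 : W.RF.r (j β) ≠ 0 := by rw [eβ, (W.iF_O _).2]; exact N.β0
  have β1 : j β ≠ 0 := Red.ne_zero β0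
  have hρ : ∀ k, ∃ ρ : E, j ρ = W.iF (N.ρ k) := fun k => by
    obtain ⟨s, -, e⟩ := hFS _ (N.fs k 1 N.r_pos)
    exact ⟨s / β, by rw [map_div₀, e, map_mul, pow_one, ← eβ, mul_div_cancel_right₀ _ β1]⟩
  choose ρ eρ using hρ
  let Lt : IntermediateField ℂ ΩL := IntermediateField.adjoin ℂ
    (Set.range (W.p.comp j) ∪ Set.range (W.s.comp (W.p.comp j)))
  have m1 : ∀ f, W.p (j f) ∈ Lt := fun f => IntermediateField.subset_adjoin _ _ (Or.inl ⟨f, rfl⟩)
  have m2 : ∀ f, W.s (W.p (j f)) ∈ Lt := fun f =>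
    IntermediateField.subset_adjoin _ _ (Or.inr ⟨f, rfl⟩)
  have ms : ∀ x ∈ Lt, W.s x ∈ Lt := fun x hx =>
    (IntermediateField.adjoin_le_iff (T := Lt.comap W.s)).2 (by
      rintro _ (⟨f, rfl⟩ | ⟨f, rfl⟩)
      · exact m2 f
      · change W.s (W.s (W.p (j f))) ∈ Lt
        rw [W.s_s]
        exact m1 f) hx
  let ι : E →ₐ[ℂ] Lt := (W.p.comp j).codRestrict Lt.toSubalgebra m1
  let τ : Lt →ₐ[ℂ] Lt := (W.s.comp Lt.val).codRestrict Lt.toSubalgebra fun x => ms x x.2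
  have gen : IntermediateField.adjoin ℂ (Set.range ι ∪ Set.range fun x => τ (ι x)) = ⊤ := by
    refine IntermediateField.map_injective Lt.val ?_
    rw [IntermediateField.adjoin_map, ← AlgHom.fieldRange_eq_map, IntermediateField.fieldRange_val,
      Set.image_union, ← Set.range_comp, ← Set.range_comp]
    rfl
  have ipl : ∀ i k, W.iL (plk (pv N.a) (qv N.a) i k) =
      plk (pv fun i => W.iL (N.a i)) (qv fun i => W.iL (N.a i)) i k := map_plk W.iL N.a
  have pl : ∀ i k, W.iL (N.w * plk (pv N.a) (qv N.a) i k) = ∑ m, ∑ l,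
      W.t (N.e i k m l) • (W.p (j (ρ m)) * W.s (W.p (j (ρ l)))) := fun i k => by
    simp only [N.pl, map_sum, Algebra.smul_def, map_mul, eρ, W.p_i, W.s_i, ← W.iL_map]
    rfl
  have mpl : ∀ i k, W.iL (N.w * plk (pv N.a) (qv N.a) i k) ∈ Lt := fun i k => by
    rw [pl]
    exact sum_mem fun m _ => sum_mem fun l _ => Lt.smul_mem (mul_mem (m1 _) (m2 _))
  have mw : W.iL N.w ∈ Lt := by simpa [Rig38.plk01] using mpl 0 1
  have w0 : W.RL.r (W.iL N.w) ≠ 0 := by rw [(W.iL_O _).2]; exact N.w0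
  have ma : ∀ i, W.iL (N.a i) ∈ Lt := fun i => by
    obtain ⟨k, l, e⟩ := exists_plk_eq N.a i
    have := div_mem (mpl k l) mw
    rwa [map_mul, mul_div_cancel_left₀ _ (Red.ne_zero w0), ← e] at this
  let a : Fin 8 → Lt := fun i => ⟨W.iL (N.a i), ma i⟩
  have apl : ∀ i k, ((plk (pv a) (qv a) i k : Lt) : ΩL) = W.iL (plk (pv N.a) (qv N.a) i k) :=
    fun i k => (map_plk (Lt.val : Lt →+* ΩL) a i k).trans (ipl i k).symm
  have a0 : ∀ i, (W.RL.comap Lt.val).r (a i) = Λ.a i := fun i => (W.iL_O _).2.trans (N.a0 i)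
  have o1 : ∀ x, W.co (W.p x) ∈ OdH N.ν 0 := fun x => by
    obtain ⟨y, e⟩ := W.co_p x
    rw [e]
    exact hm_mem_OdH N.ν1 y
  have o2 : ∀ x, W.co (W.s (W.p x)) ∈ OdH N.ν 0 := fun x => by
    obtain ⟨y, e⟩ := W.co_p x
    rw [W.co_s, e, Pui27.hm_hm]
    exact hm_mem_OdH N.ν2 y
  let Od : ℕ → Submodule ℂ Lt := fun n =>
    { carrier := {x | W.co x ∈ OdH N.ν n}
      add_mem' := fun {x y} hx hy => by
        change W.co (x + y) ∈ OdH N.ν n
        rw [map_add]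
        exact add_mem hx hy
      zero_mem' := by
        change W.co 0 ∈ OdH N.ν n
        rw [map_zero]
        exact zero_mem _
      smul_mem' := fun c x hx => by
        change W.co (c • (x : ΩL)) ∈ OdH N.ν n
        rw [Algebra.smul_def, map_mul, ← W.p.commutes, ← zero_add n]
        exact OdH_mul (o1 _) hx }
  let D : Dat Λ G h Lt :=
    { pf := N.pf
      R' := W.RL.comap Lt.val
      ι := ι
      τ := τ
      inv := fun x => Subtype.ext (W.s_s x)
      gen := gen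
      dim := le_antisymm (trdeg_le_four b ι (τ.comp ι) gen)
        (four_le_trdeg Λ (W.RL.comap Lt.val) (fun i => (W.iL_O _).1) a0)
      ιO := fun f hf => W.p_O _ hf
      τO := fun x hx => W.s_O _ hx
      r := N.r
      r_pos := N.r_pos
      n := N.n
      ρ := ρ
      β := β
      βO := by
        change j β ∈ W.RF.O
        rw [eβ]
        exact (W.iF_O _).1
      β0 := β0
      fs := fun k => by
        obtain ⟨s, hs, e⟩ := hFS _ (N.fs k N.r le_rfl)
        rw [map_mul, map_pow, ← eρ, ← eβ, ← map_pow, ← map_mul] at e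
        exact j.injective e ▸ hs
      fsβ := hβ
      a := a
      aO := fun i => (W.iL_O _).1
      a0 := a0
      aτ := fun i => Subtype.ext ((W.s_i _).trans (congrArg W.iL (N.aτ i)))
      w := ⟨_, mw⟩
      wO := (W.iL_O _).1
      w0 := w0
      wτ := Subtype.ext (by
        change W.s (W.iL N.w ^ 2) = W.iL N.w ^ 2
        rw [← map_pow, W.s_i, N.wτ])
      e := fun i k m l => W.t (N.e i k m l)
      pl := fun i k => Subtype.ext (by
        change W.iL N.w * (plk (pv a) (qv a) i k : Lt) = Lt.val _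
        rw [apl, ← map_mul, pl]
        simp only [map_sum, map_smul, map_mul]
        rfl)
      ν := N.ν
      ν1 := N.ν1
      ν2 := N.ν2
      Od := Od
      Od_mul := fun k l x hx y hy => by
        change W.co (x * y) ∈ OdH N.ν (k + l)
        rw [map_mul]
        exact OdH_mul hx hy
      Od_anti := fun k l hkl x hx => OdH_anti hkl hx
      Od_ι := fun f => o1 _
      Od_τ := fun f => o2 _
      Od_r := fun k x hx hO => by
        change N.ν (W.RL.r x) ≤ _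
        rw [W.co_r x hO]
        exact hx 0
      m := N.m
      ord := fun i k => by
        change W.co (W.iL N.w * (plk (pv a) (qv a) i k : Lt)) ∈ OdH N.ν N.m
        rw [apl, ← map_mul, W.co_i]
        exact pu_mem_OdH _ (N.ord i k)
      lam := N.lam
      lam0 := N.lam0
      sec := N.sec }
  have hc : ∀ g, W.t g ∈ W.RL.o ∧ W.RL.z (W.t g) = constantCoeff g := fun g => by
    have h1 : W.t g ∈ W.RL.o := by
      rw [Red.mem_o, ← W.iL_map]
      exact (W.iL_O _).1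
    refine ⟨h1, (algebraMap ℂ L).injective ?_⟩
    rw [← W.RL.r_cst h1, ← W.iL_map, (W.iL_O _).2]
    rfl
  have tr : ∀ u v w : Fin 6 → Lt, ∀ u' v' w' : Fin 6 → L⟦X⟧, (∀ l, (u l : ΩL) = W.iL (u' l)) →
      (∀ l, (v l : ΩL) = W.iL (v' l)) → (∀ l, (w l : ΩL) = W.iL (w' l)) → tri N.c u' v' w' = 0 →
      tri (fun i j k => W.t (N.c i j k)) u v w = 0 := fun u v w u' v' w' hu hv hw e => by
    refine Lt.val.injective ?_
    have := Rig38.tri_map W.iL N.c (fun i j k => W.t (N.c i j k)) (fun _ _ _ => W.iL_map _) u' v' w'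
    rw [e, map_zero] at this
    change Lt.val _ = Lt.val 0
    rw [Rig38.tri_alg, map_zero, this]
    simp only [← hu, ← hv, ← hw]
    rfl
  have hp : ∀ l, ((pv a l : Lt) : ΩL) = W.iL (pv N.a l) := fun l =>
    (Rig38.pv_map (Lt.val : Lt →+* ΩL) a l).trans (Rig38.pv_map W.iL N.a l).symm
  have hq : ∀ l, ((qv a l : Lt) : ΩL) = W.iL (qv N.a l) := fun l =>
    (Rig38.qv_map (Lt.val : Lt →+* ΩL) a l).trans (Rig38.qv_map W.iL N.a l).symm
  exact ⟨cub fun i j k => W.t (N.c i j k), Lt, inferInstance, inferInstance,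
    smCub_of (R := W.RL) hG (fun i j k => (hc _).1) fun i j k => (hc _).2.trans (N.c0 i j k),
    ⟨D.lines hG ⟨fun i j k => congrArg W.t (N.sy.l i j k), fun i j k => congrArg W.t (N.sy.r i j k)⟩
      ⟨tr _ _ _ _ _ _ hp hp hp N.on.h0, tr _ _ _ _ _ _ hp hp hq N.on.h1,
        tr _ _ _ _ _ _ hp hq hq N.on.h2, tr _ _ _ _ _ _ hq hq hq N.on.h3⟩⟩⟩

end Crest.Agent.X262.Deg38
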