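import Crest.Agent.X262.Alg44.Basic
import Crest.Agent.X262.Fano21.Lin
import Crest.Agent.X262.Rig38.Fft

/-!
# Row 262, G4 / DEG (helper38), part 1: the data and the graded pieces

* `red_sec` : reductions of sections of `O(k)`;
* `Dat`     : the square of the generic fibre with the deformed line;
* `Dat.A`, `Dat.VV`, `Dat.NN`, `Dat.T` : graded pieces; `Dat.exists_frac`, `Dat.red_VV`.
-/

set_option autoImplicit false

open MvPolynomial

noncomputable section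

namespace Crest.Agent.X262.Deg38

open Crest.Agent.X277 Crest.Agent.X277.Lef Crest.Agent.X277.AN.G1 Crest.Agent.X277.BD
open Crest.Agent.X277.BD.Br (On oP At)
open Crest.Agent.X262.Top (Lines SmCub)
open Crest.Agent.X262.Alg44 (Red Pre)
open Crest.Agent.X262.Rig38 (plk pv qv)
open Crest.Agent.R274.Prod1_134 (IsPF)

theorem aeval_mem {σ A : Type} [CommRing A] [Algebra ℂ A] (N : ℕ → Submodule ℂ A)
    (h1 : 1 ∈ N 0) (hm : ∀ k l, ∀ x ∈ N k, ∀ y ∈ N l, x * y ∈ N (k + l)) {y : σ → A}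
    (hy : ∀ i, y i ∈ N 1) {p : MvPolynomial σ ℂ} {k : ℕ} (hp : p.IsHomogeneous k) :
    aeval y p ∈ N k := by
  have hpow : ∀ i n, y i ^ n ∈ N n := fun i n => by
    induction n with
    | zero => simpa using h1
    | succ n ih => rw [pow_succ]; exact hm _ _ _ ih _ (hy i)
  refine IsWeightedHomogeneous.induction_on (motive := fun p _ => aeval y p ∈ N k) ?_ ?_ ?_ hp
  · simp
  · intro p q _ _ hp hq
    rw [map_add]
    exact add_mem hp hq
  · intro m c hm'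
    rw [aeval_monomial, ← Algebra.smul_def, ← hm', Finsupp.weight_apply]
    refine Submodule.smul_mem _ _ ?_
    simp only [Finsupp.prod, Finsupp.sum, Pi.one_apply, smul_eq_mul, mul_one]
    induction m.support using Finset.cons_induction with
    | empty => simpa using h1
    | cons i s hi ih => rw [Finset.prod_cons, Finset.sum_cons]; exact hm _ _ _ (hpow _ _) _ ih

variable {F E : Type} [Field F] [Algebra ℂ F] [Field E] [Algebra ℂ E] {R : Red F E}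
  {P : PModel ℂ F}

theorem div_mem_A {s : F} {k : ℕ} (hs : s ∈ (k • oP P).Sec) (i : Fin (P.N + 1)) :
    s / P.y i ^ k ∈ P.A i :=
  mem_of_local (Subalgebra.toSubmodule (P.A i)) (fun _ hc _ hg => (P.A i).mul_mem hc hg)
    fun _ hx => by
    obtain ⟨a, ha, c, hc, h0, h1⟩ := (mem_lp_iff hx).1 (((Br.at_y hx).nsmul k).div_mem hs)
    exact ⟨c, hc, h0, by rw [mul_comm, h1]; exact ha⟩

theorem red_sec {G : Pre R P} {h : G.Sm} {s : E} {k : ℕ} (hs : s ∈ (k • oP (G.gen h)).Sec)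
    (hO : s ∈ R.O) : R.r s ∈ (k • oP P).Sec := fun V => by
  obtain ⟨i, hi, hV⟩ := Br.exists_chart (P := P) V
  have h0 : R.r (G.y i ^ k) = P.y i ^ k := by rw [Red.r_pow (G.y_mem i), G.y_r]
  have h1 : R.r (G.y i ^ k) ≠ 0 := h0 ▸ pow_ne_zero _ (P.y_ne i)
  have h2 := (Pre.Ao_spec (G.sat i _ (div_mem_A hs i)
    (Red.div_mem hO (pow_mem (G.y_mem i) k) h1))).2
  rw [Red.r_div hO (pow_mem (G.y_mem i) k) h1, h0] at h2
  rw [val_nsmul, ← hi, ← map_pow]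
  exact (RZ.le_iff (pow_ne_zero _ (P.y_ne i))).2 (hV _ h2)

variable {G₀ : MvPolynomial (Fin 6) ℂ} {L : Type} [Field L] [Algebra ℂ L]

/-- the square of the generic fibre with the deformed line -/
structure Dat (Λ : Lines G₀ F L) (G : Pre R P) (h : G.Sm) (L' : Type) [Field L'] [Algebra ℂ L']
    where
  pf : IsPF Λ.ι (Λ.τ.comp Λ.ι)
  /-- the reduction -/
  R' : Red L L'
  /-- the first projection -/
  ι : E →ₐ[ℂ] L'
  /-- the swap -/
  τ : L' →ₐ[ℂ] L'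
  inv : ∀ x, τ (τ x) = x
  gen : IntermediateField.adjoin ℂ (Set.range ι ∪ Set.range fun x => τ (ι x)) = ⊤
  dim : Algebra.trdeg ℂ L' = 4
  ιO : ∀ f ∈ R.O, ι f ∈ R'.O ∧ R'.r (ι f) = Λ.ι (R.r f)
  τO : ∀ x ∈ R'.O, τ x ∈ R'.O ∧ R'.r (τ x) = Λ.τ (R'.r x)
  /-- `O(1)` is the `r`-th power of the polarisation -/
  r : ℕ
  r_pos : 0 < r
  /-- the number of sections -/
  n : ℕ
  /-- the sections -/
  ρ : Fin n → E
  /-- the twist -/
  β : E
  βO : β ∈ R.O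
  β0 : R.r β ≠ 0
  fs : ∀ k, ρ k ^ r * β ∈ (oP (G.gen h)).Sec
  fsβ : β ∈ (oP (G.gen h)).Sec
  /-- the line -/
  a : Fin 8 → L'
  aO : ∀ i, a i ∈ R'.O
  a0 : ∀ i, R'.r (a i) = Λ.a i
  aτ : ∀ i, τ (a i) = a i
  /-- the multiplier -/
  w : L'
  wO : w ∈ R'.O
  w0 : R'.r w ≠ 0
  wτ : τ (w ^ 2) = w ^ 2
  /-- the coefficients -/
  e : Fin 6 → Fin 6 → Fin n → Fin n → ℂ
  pl : ∀ i j, w * plk (pv a) (qv a) i j = ∑ k, ∑ l, e i j k l • (ι (ρ k) * τ (ι (ρ l)))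
  /-- the order along the diagonal of the special fibre -/
  ν : Valuation L (WithZero (Multiplicative ℤ))
  ν1 : ∀ f, f ≠ 0 → ν (Λ.ι f) = 1
  ν2 : ∀ f, f ≠ 0 → ν (Λ.τ (Λ.ι f)) = 1
  /-- the order along the diagonal -/
  Od : ℕ → Submodule ℂ L'
  Od_mul : ∀ k l, ∀ x ∈ Od k, ∀ y ∈ Od l, x * y ∈ Od (k + l)
  Od_anti : ∀ k l, k ≤ l → Od l ≤ Od k
  Od_ι : ∀ f, ι f ∈ Od 0
  Od_τ : ∀ f, τ (ι f) ∈ Od 0
  Od_r : ∀ k, ∀ x ∈ Od k, x ∈ R'.O → ν (R'.r x) ≤ WithZero.exp (-(k : ℤ))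
  /-- the multiplicity -/
  m : ℕ
  ord : ∀ i j, w * plk (pv a) (qv a) i j ∈ Od m
  /-- the twist -/
  lam : L
  lam0 : lam ≠ 0
  sec : ∀ k : ℕ, ∀ σ ∈ (k • (pb Λ.ι (oP P) + pb (Λ.τ.comp Λ.ι) (oP P))).Sec,
    ν σ ≤ WithZero.exp (-((r * k * m : ℕ) : ℤ)) → lam ^ k * σ ∈ ((r * k) • mxf ℂ Λ.plk).Sec

namespace Dat

variable {Λ : Lines G₀ F L} {G : Pre R P} {h : G.Sm} {L' : Type} [Field L'] [Algebra ℂ L']
  (D : Dat Λ G h L')

theorem β_ne : D.β ≠ 0 := Red.ne_zero D.β0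

theorem w_ne : D.w ≠ 0 := Red.ne_zero D.w0

/-- sections of the `n`-th power of the polarisation -/
def A (n : ℕ) : Submodule ℂ E where
  carrier := {f | ∀ V : RZ ℂ E, V.v f ^ D.r * V.v D.β ^ n ≤ (oP (G.gen h)).val V ^ n}
  add_mem' {f g} hf hg V := by
    rcases le_max_iff.1 (V.v.map_add f g) with e | e
    · exact (mul_le_mul_left (pow_le_pow_left' e _) _).trans (hf V)
    · exact (mul_le_mul_left (pow_le_pow_left' e _) _).trans (hg V)
  zero_mem' V := by simp [D.r_pos.ne']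
  smul_mem' c f hf V := (mul_le_mul_left (pow_le_pow_left' (V.v_smul_le c f) _) _).trans (hf V)

variable {D}

theorem A_mul {k l : ℕ} {f g : E} (hf : f ∈ D.A k) (hg : g ∈ D.A l) : f * g ∈ D.A (k + l) :=
  fun V => by
  have := mul_le_mul' (hf V) (hg V)
  rw [map_mul, mul_pow, pow_add, pow_add]
  exact (le_of_eq (by ac_rfl)).trans this

theorem one_mem_A : 1 ∈ D.A 0 := fun V => by simp

theorem ρ_mem (k : Fin D.n) : D.ρ k ∈ D.A 1 := fun V => by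
  have := D.fs k V
  rwa [map_mul, map_pow, ← pow_one (V.v D.β), ← pow_one (BD.val _ V)] at this

theorem mem_A_iff {k : ℕ} {f : E} : f ∈ D.A (D.r * k) ↔ f * D.β ^ k ∈ (k • oP (G.gen h)).Sec :=
  forall_congr' fun V => by
    rw [map_mul, map_pow, val_nsmul, mul_comm D.r, pow_mul, pow_mul, ← mul_pow]
    exact pow_le_pow_iff_left₀ zero_le zero_le D.r_pos.ne'

theorem exists_fracA (f : E) : ∃ d, ∃ s ∈ D.A d, ∃ s' ∈ D.A d, s' ≠ 0 ∧ f * s' = s := by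
  obtain ⟨a, ha, c, hc, h0, rfl⟩ := G.frac f
  have key : ∀ a ∈ chart ℂ G.y 0, ∃ N0 : ℕ, ∀ N, N0 ≤ N →
      a * G.y 0 ^ N / D.β ^ N ∈ D.A (D.r * N) := fun a ha => by
    obtain ⟨N0, hN⟩ := Br.exists_tw_mem (P := G.gen h) (a := 0) (f := a) (i := 0)
      fun V hV => by simpa using RZ.le_one_iff.2 (hV a ha)
    refine ⟨N0, fun N hN' => mem_A_iff.2 ?_⟩
    rw [div_mul_cancel₀ _ (pow_ne_zero _ D.β_ne)]
    simpa using hN N hN'
  obtain ⟨N1, h1⟩ := key a ha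
  obtain ⟨N2, h2⟩ := key c hc
  refine ⟨_, _, h1 (N1 + N2) (by omega), _, h2 (N1 + N2) (by omega), div_ne_zero
    (mul_ne_zero h0 (pow_ne_zero _ (G.y_ne 0))) (pow_ne_zero _ D.β_ne), ?_⟩
  field_simp

variable (D) in
/-- products of sections -/
def VV (n : ℕ) : Submodule ℂ L' :=
  Submodule.span ℂ {x | ∃ f ∈ D.A n, ∃ g ∈ D.A n, x = D.ι f * D.τ (D.ι g)}

theorem mem_VV {n : ℕ} {f g : E} (hf : f ∈ D.A n) (hg : g ∈ D.A n) :
    D.ι f * D.τ (D.ι g) ∈ D.VV n := Submodule.subset_span ⟨f, hf, g, hg, rfl⟩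

theorem VV_mul {k l : ℕ} {x y : L'} (hx : x ∈ D.VV k) (hy : y ∈ D.VV l) :
    x * y ∈ D.VV (k + l) := by
  refine (?_ : D.VV k * D.VV l ≤ D.VV (k + l)) (Submodule.mul_mem_mul hx hy)
  rw [VV, VV, Submodule.span_mul_span, Submodule.span_le]
  rintro _ ⟨_, ⟨f, hf, g, hg, rfl⟩, _, ⟨f', hf', g', hg', rfl⟩, rfl⟩
  have := mem_VV (A_mul hf hf') (A_mul hg hg')
  simp only [map_mul] at this
  change _ * _ ∈ D.VV _
  convert this using 1
  ring

theorem one_mem_VV : 1 ∈ D.VV 0 := by simpa using mem_VV (D := D) one_mem_A one_mem_A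

theorem τ_VV {n : ℕ} {x : L'} (hx : x ∈ D.VV n) : D.τ x ∈ D.VV n := by
  refine (Submodule.span_le (p := (D.VV n).comap D.τ.toLinearMap)).2 ?_ hx
  rintro _ ⟨f, hf, g, hg, rfl⟩
  change D.τ _ ∈ D.VV n
  rw [map_mul, D.inv, mul_comm]
  exact mem_VV hg hf

theorem VV_Od {n : ℕ} {x : L'} (hx : x ∈ D.VV n) : x ∈ D.Od 0 := by
  refine Submodule.span_le.2 ?_ hx
  rintro _ ⟨f, -, g, -, rfl⟩
  exact D.Od_mul 0 0 _ (D.Od_ι f) _ (D.Od_τ g)

theorem pl_VV (i j : Fin 6) : D.w * plk (pv D.a) (qv D.a) i j ∈ D.VV 1 := by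
  rw [D.pl]
  exact Submodule.sum_mem _ fun k _ => Submodule.sum_mem _ fun l _ =>
    Submodule.smul_mem _ _ (mem_VV (ρ_mem k) (ρ_mem l))

theorem w_VV (n : ℕ) : D.w ^ n ∈ D.VV n := by
  induction n with
  | zero => simpa using one_mem_VV
  | succ n ih =>
    rw [pow_succ]
    exact VV_mul ih (by simpa [Rig38.plk01] using pl_VV (D := D) 0 1)

theorem exists_frac (x : L') : ∃ d, ∃ s ∈ D.VV d, ∃ s' ∈ D.VV d, s' ≠ 0 ∧ x * s' = s := by
  have hx : x ∈ IntermediateField.adjoin ℂ (Set.range D.ι ∪ Set.range fun x => D.τ (D.ι x)) :=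
    D.gen ▸ IntermediateField.mem_top
  have hι : ∀ f, ∃ d, ∃ s ∈ D.VV d, ∃ s' ∈ D.VV d, s' ≠ 0 ∧ D.ι f * s' = s := fun f => by
    obtain ⟨d, s, hs, s', hs', h0, e⟩ := exists_fracA (D := D) f
    exact ⟨d, _, mem_VV hs hs', _, mem_VV hs' hs', mul_ne_zero ((map_ne_zero _).2 h0)
      ((map_ne_zero _).2 ((map_ne_zero _).2 h0)), by rw [← mul_assoc, ← map_mul, e]⟩
  induction hx using IntermediateField.adjoin_induction with
  | mem x hx =>
    rcases hx with ⟨f, rfl⟩ | ⟨f, rfl⟩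
    · exact hι f
    · obtain ⟨d, s, hs, s', hs', h0, e⟩ := hι f
      exact ⟨d, _, τ_VV hs, _, τ_VV hs', (map_ne_zero _).2 h0, by rw [← map_mul, e]⟩
  | algebraMap c => exact D.ι.commutes c ▸ hι _
  | add x y _ _ hx hy =>
    obtain ⟨d, s, hs, s', hs', h0, e⟩ := hx
    obtain ⟨d', t, ht, t', ht', h0', e'⟩ := hy
    exact ⟨d + d', _, add_mem (VV_mul hs ht') (VV_mul hs' ht), _, VV_mul hs' ht',
      mul_ne_zero h0 h0', by rw [← e, ← e']; ring⟩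
  | inv x _ hx =>
    obtain ⟨d, s, hs, s', hs', h0, e⟩ := hx
    by_cases hx0 : x = 0
    · exact ⟨d, 0, zero_mem _, s', hs', h0, by simp [hx0]⟩
    · exact ⟨d, s', hs', s, hs, e ▸ mul_ne_zero hx0 h0, by rw [← e]; field_simp⟩
  | mul x y _ _ hx hy =>
    obtain ⟨d, s, hs, s', hs', h0, e⟩ := hx
    obtain ⟨d', t, ht, t', ht', h0', e'⟩ := hy
    exact ⟨d + d', _, VV_mul hs ht, _, VV_mul hs' ht', mul_ne_zero h0 h0',
      by rw [← e, ← e']; ring⟩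

theorem exists_fin {n : ℕ} {x : L'} (hx : x ∈ D.VV n) : ∃ U : Submodule ℂ E, U.FG ∧ U ≤ D.A n ∧
    x ∈ Submodule.span ℂ {x | ∃ f ∈ U, ∃ g ∈ U, x = D.ι f * D.τ (D.ι g)} := by
  have mono : ∀ U U' : Submodule ℂ E, U ≤ U' →
      Submodule.span ℂ {x | ∃ f ∈ U, ∃ g ∈ U, x = D.ι f * D.τ (D.ι g)} ≤
      Submodule.span ℂ {x | ∃ f ∈ U', ∃ g ∈ U', x = D.ι f * D.τ (D.ι g)} := fun U U' hU =>
    Submodule.span_mono fun _ ⟨f, hf, g, hg, e⟩ => ⟨f, hU hf, g, hU hg, e⟩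
  induction hx using Submodule.span_induction with
  | mem x hx =>
    obtain ⟨f, hf, g, hg, rfl⟩ := hx
    exact ⟨Submodule.span ℂ {f, g}, Submodule.fg_span (Set.toFinite _),
      Submodule.span_le.2 (Set.pair_subset hf hg), Submodule.subset_span
        ⟨f, Submodule.subset_span (by simp), g, Submodule.subset_span (by simp), rfl⟩⟩
  | zero => exact ⟨⊥, Submodule.fg_bot, bot_le, zero_mem _⟩
  | add x y _ _ hx hy =>
    obtain ⟨U, h1, h2, h3⟩ := hx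
    obtain ⟨U', h1', h2', h3'⟩ := hy
    exact ⟨U ⊔ U', h1.sup h1', sup_le h2 h2',
      add_mem (mono _ _ le_sup_left h3) (mono _ _ le_sup_right h3')⟩
  | smul c x _ hx =>
    obtain ⟨U, h1, h2, h3⟩ := hx
    exact ⟨U, h1, h2, Submodule.smul_mem _ _ h3⟩

theorem prod_O {f g : E} (hf : f ∈ R.O) (hg : g ∈ R.O) : D.ι f * D.τ (D.ι g) ∈ D.R'.O ∧
    D.R'.r (D.ι f * D.τ (D.ι g)) = Λ.ι (R.r f) * Λ.τ (Λ.ι (R.r g)) := by
  have h1 := D.ιO f hf
  have h2 := D.ιO g hg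
  have h3 := D.τO _ h2.1
  exact ⟨mul_mem h1.1 h3.1, by rw [D.R'.r_mul h1.1 h3.1, h1.2, h3.2, h2.2]⟩

theorem red_VV {k : ℕ} {x : L'} (hx : x ∈ D.VV (D.r * k)) (hO : x ∈ D.R'.O) :
    D.R'.r x * (Λ.ι (R.r D.β) * Λ.τ (Λ.ι (R.r D.β))) ^ k ∈
      (k • (pb Λ.ι (oP P) + pb (Λ.τ.comp Λ.ι) (oP P))).Sec := by
  obtain ⟨U, h1, h2, h3⟩ := exists_fin hx
  obtain ⟨n, b, hb, hU, hi⟩ := R.ge U (Module.Finite.iff_fg.2 h1)
  have h4 : x ∈ Submodule.span ℂ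
      (Set.range fun m : Fin n × Fin n => D.ι (b m.1) * D.τ (D.ι (b m.2))) := by
    refine Submodule.span_le.2 ?_ h3
    rintro _ ⟨f, hf, g, hg, rfl⟩
    rw [← hU] at hf hg
    obtain ⟨c, rfl⟩ := (Submodule.mem_span_range_iff_exists_fun ℂ).1 hf
    obtain ⟨c', rfl⟩ := (Submodule.mem_span_range_iff_exists_fun ℂ).1 hg
    simp only [map_sum, map_smul, Finset.sum_mul_sum, smul_mul_smul_comm]
    exact Submodule.sum_mem _ fun i _ => Submodule.sum_mem _ fun j _ =>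
      Submodule.smul_mem _ _ (Submodule.subset_span ⟨(i, j), rfl⟩)
  obtain ⟨c, rfl⟩ := (Submodule.mem_span_range_iff_exists_fun ℂ).1 h4
  have hp := fun m : Fin n × Fin n => prod_O (D := D) (hb m.1) (hb m.2)
  have hi' : LinearIndependent ℂ fun m : Fin n × Fin n =>
      D.R'.r (D.ι (b m.1) * D.τ (D.ι (b m.2))) := by
    rw [show (fun m : Fin n × Fin n => D.R'.r (D.ι (b m.1) * D.τ (D.ι (b m.2)))) =
      fun m => Λ.ι (R.r (b m.1)) * (Λ.τ.comp Λ.ι) (R.r (b m.2)) from funext fun m => (hp m).2]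
    have := D.pf.indep hi hi
    exact this
  have hc := Red.mem_o_of_indep (R := D.R')
    (b := fun m : Fin n × Fin n => D.ι (b m.1) * D.τ (D.ι (b m.2))) (fun m => (hp m).1) hi' hO
  have hs : ∀ i, R.r (b i) * R.r D.β ^ k ∈ (k • oP P).Sec := fun i => by
    rw [← Red.r_pow D.βO, ← R.r_mul (hb i) (pow_mem D.βO k)]
    exact red_sec (mem_A_iff.1 (h2 (hU ▸ Submodule.subset_span ⟨i, rfl⟩)))
      (mul_mem (hb i) (pow_mem D.βO k))
  rw [Red.r_sum fun m _ => Red.smul_mem (hc m) (hp m).1, Finset.sum_mul]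
  refine Submodule.sum_mem _ fun m _ => ?_
  rw [Red.r_smul (hc m) (hp m).1, (hp m).2, smul_mul_assoc]
  refine Submodule.smul_mem _ _ ?_
  have := mul_mem_Sec (pb_mem_Sec (α := Λ.ι) (hs m.1)) (pb_mem_Sec (α := Λ.τ.comp Λ.ι) (hs m.2))
  rw [map_nsmul, map_nsmul, ← nsmul_add] at this
  convert this using 1
  simp only [map_mul, map_pow, AlgHom.comp_apply]
  ring

end Dat

end Crest.Agent.X262.Deg38
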