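import Crest.Agent.X262.Deg38.Abs

/-!
# Row 262, G4 / DEG (helper38), part 2: the fixed field of the swap

* `Dat.key` : reductions of invariant sections are forms in the Pluecker coordinates;
* `Dat.nak` : invariant sections are forms; `Dat.exists_h` : a form of high order;
* `Dat.fix` : the fixed field of the swap is generated by the coordinates of the line.
-/

set_option autoImplicit false

open MvPolynomial

noncomputable section

namespace Crest.Agent.X262.Deg38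

open Crest.Agent.X277 Crest.Agent.X277.Lef Crest.Agent.X277.AN.G1 Crest.Agent.X277.BD
open Crest.Agent.X277.BD.Br (On oP At)
open Crest.Agent.X262.Top (Lines SmCub)
open Crest.Agent.X262.Alg44 (Red Pre)
open Crest.Agent.X262.Rig38 (plk pv qv)

variable {F E : Type} [Field F] [Algebra ℂ F] [Field E] [Algebra ℂ E] {R : Red F E}
  {P : PModel ℂ F} {G₀ : MvPolynomial (Fin 6) ℂ} {L : Type} [Field L] [Algebra ℂ L]

theorem plk_mem {A S : Type} [CommRing A] [SetLike S A] [SubringClass S A] (s : S) {a : Fin 8 → A}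
    (ha : ∀ i, a i ∈ s) (i j : Fin 6) : plk (pv a) (qv a) i j ∈ s := by
  have hp : ∀ l, pv a l ∈ s := fun l => by
    fin_cases l <;> simp [pv, ha, one_mem, zero_mem]
  have hq : ∀ l, qv a l ∈ s := fun l => by
    fin_cases l <;> simp [qv, ha, one_mem, zero_mem]
  exact sub_mem (mul_mem (hp i) (hq j)) (mul_mem (hp j) (hq i))

theorem map_plk {A A' : Type} [CommRing A] [CommRing A'] (f : A →+* A') (a : Fin 8 → A)
    (i j : Fin 6) : f (plk (pv a) (qv a) i j) =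
      plk (pv fun i => f (a i)) (qv fun i => f (a i)) i j := by
  simp only [plk, map_sub, map_mul, Rig38.pv_map, Rig38.qv_map]

theorem exists_plk_eq {A : Type} [CommRing A] (a : Fin 8 → A) (i : Fin 8) :
    ∃ k l, a i = plk (pv a) (qv a) k l := by
  fin_cases i
  exacts [⟨2, 1, by simp [plk, pv, qv]⟩, ⟨3, 1, by simp [plk, pv, qv]⟩,
    ⟨4, 1, by simp [plk, pv, qv]⟩, ⟨5, 1, by simp [plk, pv, qv]⟩, ⟨0, 2, by simp [plk, pv, qv]⟩,
    ⟨0, 3, by simp [plk, pv, qv]⟩, ⟨0, 4, by simp [plk, pv, qv]⟩, ⟨0, 5, by simp [plk, pv, qv]⟩]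

theorem val_eq_one {f : L} (h0 : f ≠ 0) (h : ∀ V : RZ ℂ L, V.v f ≤ 1) (V : RZ ℂ L) :
    V.v f = 1 := by
  obtain ⟨c, rfl⟩ := minpoly.mem_range_of_degree_eq_one ℂ f
    (IsAlgClosed.degree_eq_one_of_irreducible ℂ (minpoly.irreducible
      (Fano21.isIntegral_of_val fun W hW => RZ.le_one_iff.1 (h ⟨W, hW⟩))))
  exact V.v_alg fun e => h0 (by rw [e, map_zero])

namespace Dat

variable {Λ : Lines G₀ F L} {G : Pre R P} {h : G.Sm} {L' : Type} [Field L'] [Algebra ℂ L']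
  (D : Dat Λ G h L')

/-- the Pluecker vector -/
def om (m : Fin 6 × Fin 6) : L' := D.w * plk (pv D.a) (qv D.a) m.1 m.2

/-- invariant sections which vanish along the diagonal -/
def NN (k : ℕ) : Submodule ℂ L' where
  carrier := {x | x ∈ D.VV k ∧ x ∈ D.Od (k * D.m) ∧ D.τ (x / D.w ^ k) = x / D.w ^ k}
  add_mem' hx hy := ⟨add_mem hx.1 hy.1, add_mem hx.2.1 hy.2.1, by
    rw [add_div, map_add, hx.2.2, hy.2.2]⟩
  zero_mem' := ⟨zero_mem _, zero_mem _, by simp⟩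
  smul_mem' c x hx := ⟨Submodule.smul_mem _ _ hx.1, Submodule.smul_mem _ _ hx.2.1, by
    rw [smul_div_assoc, map_smul, hx.2.2]⟩

/-- forms in the Pluecker vector -/
def T (k : ℕ) : Submodule ℂ L' :=
  (homogeneousSubmodule (Fin 6 × Fin 6) ℂ k).map (aeval D.om).toLinearMap

variable {D}

theorem plk_O (i j : Fin 6) : plk (pv D.a) (qv D.a) i j ∈ D.R'.O ∧
    D.R'.r (plk (pv D.a) (qv D.a) i j) = Λ.plk (i, j) := by
  refine ⟨plk_mem _ D.aO i j, ?_⟩
  have h1 := map_plk D.R'.ρ (fun i => ⟨D.a i, D.aO i⟩) i j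
  have h2 := map_plk D.R'.O.subtype (fun i => ⟨D.a i, D.aO i⟩) i j
  simp only [Red.ρ_apply, D.a0, Subring.subtype_apply] at h1 h2
  rw [← h2, h1]
  rfl

theorem om_O (m : Fin 6 × Fin 6) : D.om m ∈ D.R'.O ∧ D.R'.r (D.om m) = D.R'.r D.w * Λ.plk m :=
  ⟨mul_mem D.wO (plk_O ..).1, by rw [om, D.R'.r_mul D.wO (plk_O ..).1, (plk_O ..).2]⟩

theorem τ_plk (i j : Fin 6) : D.τ (plk (pv D.a) (qv D.a) i j) = plk (pv D.a) (qv D.a) i j := by
  have := map_plk (D.τ : L' →+* L') D.a i j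
  simpa only [RingHom.coe_coe, D.aτ] using this

theorem NN_mul (k l : ℕ) (x : L') (hx : x ∈ D.NN k) (y : L') (hy : y ∈ D.NN l) :
    x * y ∈ D.NN (k + l) :=
  ⟨VV_mul hx.1 hy.1, by rw [add_mul]; exact D.Od_mul _ _ _ hx.2.1 _ hy.2.1, by
    rw [pow_add, mul_div_mul_comm, map_mul, hx.2.2, hy.2.2]⟩

theorem one_NN : 1 ∈ D.NN 0 := ⟨one_mem_VV, by rw [zero_mul]; exact VV_Od one_mem_VV, by simp⟩

theorem om_NN (m : Fin 6 × Fin 6) : D.om m ∈ D.NN 1 :=
  ⟨pl_VV _ _, by rw [one_mul]; exact D.ord _ _, by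
    rw [pow_one, om, mul_div_cancel_left₀ _ D.w_ne, τ_plk]⟩

theorem T_le (k : ℕ) : D.T k ≤ D.NN k := by
  rintro _ ⟨p, hp, rfl⟩
  exact aeval_mem D.NN one_NN NN_mul om_NN hp

theorem T_mul {k l : ℕ} {x y : L'} (hx : x ∈ D.T k) (hy : y ∈ D.T l) : x * y ∈ D.T (k + l) := by
  obtain ⟨p, hp, rfl⟩ := hx
  obtain ⟨q, hq, rfl⟩ := hy
  exact ⟨p * q, IsHomogeneous.mul hp hq, map_mul (aeval D.om) p q⟩

theorem T_pow {k : ℕ} {x : L'} (hx : x ∈ D.T k) (n : ℕ) : x ^ n ∈ D.T (k * n) := by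
  obtain ⟨p, hp, rfl⟩ := hx
  exact ⟨p ^ n, IsHomogeneous.pow hp n, map_pow (aeval D.om) p n⟩

theorem om_T (m : Fin 6 × Fin 6) : D.om m ∈ D.T 1 := ⟨X m, isHomogeneous_X _ _, aeval_X _ _⟩

theorem w_T (n : ℕ) : D.w ^ n ∈ D.T n := by
  simpa [om, Rig38.plk01] using T_pow (om_T (D := D) (0, 1)) n

theorem T_adj {k : ℕ} {x : L'} (hx : x ∈ D.T k) :
    x / D.w ^ k ∈ IntermediateField.adjoin ℂ (Set.range D.a) := by
  obtain ⟨p, hp, rfl⟩ := hx
  have e : aeval D.om p = D.w ^ k * aeval (fun m : Fin 6 × Fin 6 =>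
    plk (pv D.a) (qv D.a) m.1 m.2) p := Rig38.aeval_hom_mul hp _ _
  change aeval D.om p / _ ∈ _
  rw [e, mul_div_cancel_left₀ _ (pow_ne_zero _ D.w_ne)]
  exact Algebra.adjoin_le (S := (IntermediateField.adjoin ℂ (Set.range D.a)).toSubalgebra)
    (Set.range_subset_iff.2 fun m => plk_mem (IntermediateField.adjoin ℂ (Set.range D.a))
      (fun i => IntermediateField.subset_adjoin _ _ ⟨i, rfl⟩) _ _)
    (by rw [Algebra.adjoin_range_eq_range_aeval]; exact ⟨p, rfl⟩)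

theorem red_NN {k : ℕ} {x : L'} (hx : x ∈ D.NN (D.r * k)) (hO : x ∈ D.R'.O) :
    (D.lam * (Λ.ι (R.r D.β) * Λ.τ (Λ.ι (R.r D.β)))) ^ k * D.R'.r x ∈
      ((D.r * k) • mxf ℂ Λ.plk).Sec := by
  have := D.sec k _ (red_VV hx.1 hO) (by
    rw [map_mul, map_pow, map_mul, D.ν1 _ D.β0, D.ν2 _ D.β0, mul_one, one_pow, mul_one]
    exact D.Od_r _ _ hx.2.1 hO)
  convert this using 1
  ring

theorem v_mu (V : RZ ℂ L) :
    V.v (D.lam * (Λ.ι (R.r D.β) * Λ.τ (Λ.ι (R.r D.β))) * D.R'.r D.w ^ D.r) = 1 := by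
  refine val_eq_one (mul_ne_zero (mul_ne_zero D.lam0 (mul_ne_zero ((map_ne_zero _).2 D.β0)
    ((map_ne_zero _).2 ((map_ne_zero _).2 D.β0)))) (pow_ne_zero _ D.w0)) (fun V => ?_) V
  obtain ⟨m, hm⟩ := exists_val_mxf (k := ℂ) (s := Λ.plk) ⟨(0, 1), by
    change plk (pv Λ.a) (qv Λ.a) 0 1 ≠ 0
    rw [Rig38.plk01]
    exact one_ne_zero⟩ V
  have h1 : D.om m ^ D.r ∈ D.NN (D.r * 1) := T_le _ (by simpa using T_pow (om_T m) D.r)
  have h2 := red_NN h1 (pow_mem (om_O m).1 _) V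
  rw [Red.r_pow (om_O m).1, (om_O m).2, pow_one, mul_pow, ← mul_assoc, map_mul, val_nsmul, mul_one,
    map_pow, hm] at h2
  exact (mul_le_iff_le_one_left (pow_pos (BD.val_pos _ V) _)).1 h2

theorem key (hG : SmCub G₀) {k : ℕ} {x : L'} (hx : x ∈ D.NN (D.r * k)) (hO : x ∈ D.R'.O) :
    D.R'.r x ∈ (homogeneousSubmodule (Fin 6 × Fin 6) ℂ (D.r * k)).map
      (aeval fun m => D.R'.r (D.om m)).toLinearMap := by
  have hw : D.R'.r (D.w ^ (D.r * k)) ≠ 0 := by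
    rw [Red.r_pow D.wO]
    exact pow_ne_zero _ D.w0
  have h1 := Red.div_mem hO (pow_mem D.wO _) hw
  have h2 := Red.r_div hO (pow_mem D.wO _) hw
  rw [Red.r_pow D.wO] at h2 hw
  obtain ⟨p, hp, e⟩ := Rig38.sec_form hG.1 (Fano21.rsqStmt G₀ hG.1 hG.2) (Fano21.genPt Λ hG)
    (Fano21.nrmSec Λ hG (Fano21.genPt Λ hG) (D.r * k) (D.R'.r (x / D.w ^ (D.r * k)))
      (by rw [← (D.τO _ h1).2, hx.2.2]) fun V => by
        have h3 := red_NN hx hO V
        rwa [← div_mul_cancel₀ (D.R'.r x) hw, ← h2, pow_mul (D.R'.r D.w), mul_comm (D.R'.r _),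
          ← mul_assoc,
          ← mul_pow, map_mul, map_pow, v_mu, one_pow, one_mul] at h3)
  refine ⟨p, hp, ?_⟩
  simp only [(om_O _).2, AlgHom.toLinearMap_apply]
  rw [Rig38.aeval_hom_mul hp, ← div_mul_cancel₀ (D.R'.r x) hw, ← h2, e, mul_comm]
  rfl

theorem nak (hG : SmCub G₀) {k : ℕ} {x : L'} (hx : x ∈ D.NN (D.r * k)) : x ∈ D.T (D.r * k) := by
  have f1 : Module.Finite ℂ (D.T (D.r * k)) :=
    Module.Finite.iff_fg.2 ((homogeneousSubmodule_fg _ _ _).map _)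
  have f2 : Module.Finite ℂ ((homogeneousSubmodule (Fin 6 × Fin 6) ℂ (D.r * k)).map
      (aeval fun m => D.R'.r (D.om m)).toLinearMap) :=
    Module.Finite.iff_fg.2 ((homogeneousSubmodule_fg _ _ _).map _)
  have h1 := Red.finrank_le (R := D.R') (V := D.T (D.r * k) ⊔ Submodule.span ℂ {x})
    fun f hf hO => key hG (sup_le (T_le _) ((Submodule.span_singleton_le_iff_mem _ _).2 hx) hf) hO
  have h2 := Red.finrank_ge (R := D.R') (V := D.T (D.r * k))
    (W := (homogeneousSubmodule (Fin 6 × Fin 6) ℂ (D.r * k)).map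
      (aeval fun m => D.R'.r (D.om m)).toLinearMap) (by
      rintro _ ⟨p, hp, rfl⟩
      obtain ⟨q, hq, rfl⟩ := Red.exists_lift_form (R := D.R') hp
      have := Red.r_aeval (fun m => (om_O (D := D) m).1) q
      exact ⟨_, ⟨D.R'.up q, hq.map _, rfl⟩, this.1, this.2⟩)
  rw [Submodule.eq_of_le_of_finrank_le le_sup_left (h1.trans h2)]
  exact Submodule.mem_sup_right (Submodule.mem_span_singleton_self x)

theorem exists_T {c : L'} (hc : c ∈ Algebra.adjoin ℂ (Set.range D.a)) :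
    ∃ e₀, ∀ e, e₀ ≤ e → D.w ^ e * c ∈ D.T e := by
  have up : ∀ (c : L') e₀, D.w ^ e₀ * c ∈ D.T e₀ → ∀ e, e₀ ≤ e → D.w ^ e * c ∈ D.T e :=
    fun c e₀ h e he => by
    obtain ⟨d, rfl⟩ := Nat.exists_eq_add_of_le' he
    rw [pow_add, mul_assoc]
    exact T_mul (w_T d) h
  induction hc using Algebra.adjoin_induction with
  | mem x hx =>
    obtain ⟨i, rfl⟩ := hx
    obtain ⟨k, l, e⟩ := exists_plk_eq D.a i
    exact ⟨1, up _ 1 (by rw [pow_one, e]; exact om_T (k, l))⟩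
  | algebraMap c =>
    exact ⟨0, fun e _ => by
      rw [mul_comm, ← Algebra.smul_def]; exact Submodule.smul_mem _ _ (w_T e)⟩
  | add x y _ _ hx hy =>
    obtain ⟨e, he⟩ := hx
    obtain ⟨e', he'⟩ := hy
    exact ⟨e + e', fun d hd => by
      rw [mul_add]; exact add_mem (he d (by omega)) (he' d (by omega))⟩
  | mul x y _ _ hx hy =>
    obtain ⟨e, he⟩ := hx
    obtain ⟨e', he'⟩ := hy
    refine ⟨e + e', up _ _ ?_⟩
    rw [pow_add, mul_mul_mul_comm]
    exact T_mul (he e le_rfl) (he' e' le_rfl)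

theorem isAlgebraic (x : L') : IsAlgebraic (Algebra.adjoin ℂ (Set.range D.a)) x := by
  have h1 : Algebra.IsAlgebraic (Algebra.adjoin ℂ (Set.range Λ.a)) L :=
    IntermediateField.isAlgebraic_adjoin_iff_top.1
      (Brg.Lines.isAlgebraic_of_fix Λ.inv fun x => (Λ.fix x).1)
  obtain ⟨t, ht, hb⟩ := exists_isTranscendenceBasis_subset (R := ℂ) (Set.range Λ.a)
  choose i hi using fun y : t => ht y.2
  have h2 : AlgebraicIndependent ℂ fun y : t => D.a (i y) :=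
    Red.algIndep_of_r (R := D.R') (fun y => D.aO _) (by simpa only [D.a0, hi] using hb.1)
  let u : t → L' := fun y => D.a (i y)
  have h3 : IsTranscendenceBasis ℂ u := h2.isTranscendenceBasis_of_lift_trdeg_le
    (by rw [D.dim]; exact Cardinal.natCast_lt_aleph0 (n := 4))
    (by rw [hb.cardinalMk_eq_trdeg, D.dim, Λ.dim])
  exact (h3.isAlgebraic.1 x).tower_top_of_subalgebra_le
    (Algebra.adjoin_mono (Set.range_comp_subset_range i D.a))

theorem exists_h (hm : 0 < D.m) : ∃ e, ∃ y ∈ D.T e, y ≠ 0 ∧ y ∈ D.Od (e * D.m + 1) := by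
  obtain ⟨q, h0, hq⟩ := (isAlgebraic (D := D) D.w).exists_nonzero_coeff_and_aeval_eq_zero
    (mem_nonZeroDivisors_of_ne_zero D.w_ne)
  choose e₀ he using fun i => exists_T (D := D) (q.coeff i).2
  obtain ⟨e, hE⟩ : ∃ e, ∀ i ∈ Finset.range (q.natDegree + 1 + 1), e₀ i ≤ e :=
    ⟨_, fun i hi => Finset.le_sup (f := e₀) hi⟩
  refine ⟨e, _, he 0 e (hE 0 (by simp)), mul_ne_zero (pow_ne_zero _ D.w_ne)
    fun e => h0 (Subtype.ext e), ?_⟩
  rw [Polynomial.aeval_eq_sum_range' (n := q.natDegree + 1 + 1) (by omega),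
    Finset.sum_range_succ', pow_zero, Algebra.smul_def, mul_one] at hq
  have e1 : D.w ^ e * (q.coeff 0 : L') = -∑ i ∈ Finset.range (q.natDegree + 1),
      D.w ^ e * (q.coeff (i + 1) : L') * (D.w * D.w ^ i) := by
    have : (q.coeff 0 : L') = -∑ i ∈ Finset.range (q.natDegree + 1),
      q.coeff (i + 1) • D.w ^ (i + 1) := eq_neg_of_add_eq_zero_right hq
    rw [this, mul_neg, Finset.mul_sum]
    refine congrArg _ (Finset.sum_congr rfl fun i _ => ?_)
    rw [Algebra.smul_def, pow_succ', mul_assoc]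
    rfl
  rw [e1]
  refine neg_mem (Submodule.sum_mem _ fun i hi => D.Od_mul _ _ _
    (T_le _ (he _ e (hE _ (by simpa using hi)))).2.1 _ (D.Od_mul 1 0 _ ?_ _ (VV_Od (w_VV i))))
  exact D.Od_anti _ _ hm (by simpa [Rig38.plk01] using D.ord 0 1)

theorem exists_H (d : ℕ) : ∃ e, ∃ y ∈ D.T e, y ≠ 0 ∧ y ∈ D.Od ((e + d) * D.m) := by
  rcases Nat.eq_zero_or_pos D.m with hm | hm
  · exact ⟨0, _, w_T 0, pow_ne_zero _ D.w_ne, by rw [hm]; exact VV_Od (w_VV 0)⟩
  · obtain ⟨e, y, h1, h2, h3⟩ := exists_h (D := D) hm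
    have hp : ∀ n, y ^ n ∈ D.Od ((e * D.m + 1) * n) := fun n => by
      induction n with
      | zero => simpa using VV_Od (D := D) one_mem_VV
      | succ n ih => rw [pow_succ, mul_add, mul_one]; exact D.Od_mul _ _ _ ih _ h3
    exact ⟨_, _, T_pow h1 (d * D.m), pow_ne_zero _ h2, by
      convert hp (d * D.m) using 2; ring⟩

variable (D) in
/-- **DEG** -/
theorem fix (hG : SmCub G₀) (x : L') :
    D.τ x = x ↔ x ∈ IntermediateField.adjoin ℂ (Set.range D.a) := by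
  refine ⟨fun hx => ?_, fun hx => ?_⟩
  · obtain ⟨d, s, hs, s', hs', h0, e⟩ := exists_frac (D := D) x
    obtain ⟨n, y, h1, h2, h3⟩ := exists_H (D := D) (d + d)
    obtain ⟨r, hr⟩ : ∃ r, D.r = r + 1 := Nat.exists_eq_succ_of_ne_zero D.r_pos.ne'
    have hw : D.τ (D.w ^ (d + d)) = D.w ^ (d + d) := by
      rw [← two_mul, pow_mul, map_pow, D.wτ]
    have mem : ∀ z ∈ D.VV (d + d), D.τ z = z → D.w ^ (r * (n + (d + d))) * (y * z) /
        D.w ^ (D.r * (n + (d + d))) ∈ IntermediateField.adjoin ℂ (Set.range D.a) := fun z hz hz' => by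
      refine T_adj (nak hG ?_)
      rw [hr, add_mul, one_mul]
      refine NN_mul _ _ _ (T_le _ (w_T _)) _ ⟨VV_mul (T_le _ h1).1 hz,
        D.Od_mul _ 0 _ h3 _ (VV_Od hz), ?_⟩
      rw [pow_add, mul_div_mul_comm, map_mul, (T_le _ h1).2.2, map_div₀, hw, hz']
    have h4 := div_mem (mem _ (VV_mul hs (τ_VV hs')) (by
        rw [← e, map_mul, map_mul, hx, D.inv]; ring))
      (mem _ (VV_mul hs' (τ_VV hs')) (by rw [map_mul, D.inv, mul_comm]))
    have h5 : D.τ s' ≠ 0 := (map_ne_zero _).2 h0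
    have h6 := D.w_ne
    convert h4 using 1
    rw [← e]
    field_simp
  · refine (IntermediateField.adjoin_le_iff (T := ⟨AlgHom.equalizer D.τ (AlgHom.id ℂ L'),
      fun y (hy : D.τ y = y) => show D.τ y⁻¹ = y⁻¹ by rw [map_inv₀, hy]⟩)).2 ?_ hx
    rintro _ ⟨i, rfl⟩
    exact D.aτ i

end Dat

end Crest.Agent.X262.Deg38
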