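import Crest.Agent.X262.Deg38.Fix
import Crest.Agent.X262.Pui27.Hn

/-!
# Row 262, G4 / DEG (helper38), part 3: dimension, smoothness, order of Hahn series

* `trdeg_four`, `smCub_of`, `Dat.lines`;
* `OdH ν n` : Hahn series whose coefficients have order `≥ n`.
-/

set_option autoImplicit false
set_option linter.unusedSectionVars false

open MvPolynomial

noncomputable section

namespace Crest.Agent.X262.Deg38

open Crest.Agent.X277 Crest.Agent.X277.Lef
open Crest.Agent.X262.Top (Lines SmCub)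
open Crest.Agent.X262.Alg44 (Red Pre)
open Crest.Agent.X262.Rig38 (plk pv qv T3 Sy ten cub tri OnL)
open Crest.Agent.X262.Surf (B2)
open Crest.Agent.X262.Pui27 (Hn)

variable {F E : Type} [Field F] [Algebra ℂ F] [Field E] [Algebra ℂ E] {R : Red F E}
  {P : PModel ℂ F} {G₀ : MvPolynomial (Fin 6) ℂ} {L : Type} [Field L] [Algebra ℂ L]
  {L' : Type} [Field L'] [Algebra ℂ L']

theorem trdeg_le_four (b : B2 E) (ι ι' : E →ₐ[ℂ] L')
    (gen : IntermediateField.adjoin ℂ (Set.range ι ∪ Set.range ι') = ⊤) :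
    Algebra.trdeg ℂ L' ≤ 4 := by
  obtain ⟨s, hs⟩ := exists_isTranscendenceBasis ℂ E
  have hc : Cardinal.mk s = 2 := hs.cardinalMk_eq_trdeg.trans (Brg.Lines.trdeg_of_basis b)
  have key : ∀ (j : E →ₐ[ℂ] L') (t : Set L'), j '' s ⊆ t → ∀ f,
      IsAlgebraic (Algebra.adjoin ℂ t) (j f) := fun j t ht f => by
    have h1 := hs.isAlgebraic.1 f
    rw [Subtype.range_coe] at h1
    have h2 : ∀ x : Algebra.adjoin ℂ s, j x ∈ Algebra.adjoin ℂ t := fun x =>
      Algebra.adjoin_mono ht (by rw [← AlgHom.map_adjoin]; exact ⟨x, x.2, rfl⟩)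
    exact h1.ringHom_of_comp_eq (((j : E →+* L').comp (Algebra.adjoin ℂ s).val.toRingHom).codRestrict
      (Algebra.adjoin ℂ t) h2) (j : E →+* L')
      (fun x y e => Subtype.ext (j.injective (congrArg Subtype.val e))) rfl
  have : Algebra.IsAlgebraic (Algebra.adjoin ℂ (ι '' s ∪ ι' '' s)) L' :=
    IntermediateField.isAlgebraic_adjoin_iff_top.1 ⟨fun x => by
      have hx : x ∈ IntermediateField.adjoin ℂ (Set.range ι ∪ Set.range ι') :=
        gen ▸ IntermediateField.mem_top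
      induction hx using IntermediateField.adjoin_induction with
      | mem x hx =>
        rcases hx with ⟨f, rfl⟩ | ⟨f, rfl⟩
        · exact IntermediateField.isAlgebraic_adjoin_iff.2 (key ι _ Set.subset_union_left f)
        · exact IntermediateField.isAlgebraic_adjoin_iff.2 (key ι' _ Set.subset_union_right f)
      | algebraMap c =>
        exact isAlgebraic_algebraMap
          (algebraMap ℂ (IntermediateField.adjoin ℂ (ι '' s ∪ ι' '' s)) c)
      | add x y _ _ hx hy => exact hx.add hy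
      | inv x _ hx => exact hx.inv
      | mul x y _ _ hx hy => exact hx.mul hy⟩
  refine (Algebra.IsAlgebraic.trdeg_le_cardinalMk ℂ (ι '' s ∪ ι' '' s)).trans
    ((Cardinal.mk_union_le _ _).trans ((add_le_add Cardinal.mk_image_le
      Cardinal.mk_image_le).trans ?_))
  rw [hc]
  norm_num

theorem four_le_trdeg (Λ : Lines G₀ F L) (R' : Red L L') {a : Fin 8 → L'} (aO : ∀ i, a i ∈ R'.O)
    (a0 : ∀ i, R'.r (a i) = Λ.a i) : 4 ≤ Algebra.trdeg ℂ L' := by
  have h1 : Algebra.IsAlgebraic (Algebra.adjoin ℂ (Set.range Λ.a)) L :=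
    IntermediateField.isAlgebraic_adjoin_iff_top.1
      (Brg.Lines.isAlgebraic_of_fix Λ.inv fun x => (Λ.fix x).1)
  obtain ⟨t, ht, hb⟩ := exists_isTranscendenceBasis_subset (R := ℂ) (Set.range Λ.a)
  choose i hi using fun y : t => ht y.2
  have h2 : AlgebraicIndependent ℂ fun y : t => a (i y) :=
    Red.algIndep_of_r (R := R') (fun y => aO _) (by simpa only [a0, hi] using hb.1)
  rw [← Λ.dim, ← hb.cardinalMk_eq_trdeg]
  exact h2.cardinalMk_le_trdeg

theorem map_cub {A B : Type} [CommRing A] [CommRing B] (f : A →+* B) (c : T3 A) :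
    map f (cub c) = cub fun i j k => f (c i j k) := by
  rw [cub, Rig38.tri_map (map f) c (fun i j k => f (c i j k)) fun _ _ _ => map_C _ _]
  simp only [map_X]
  rfl

theorem smCub_of (hG : SmCub G₀) {c : T3 ℂ} (hc : ∀ i j k, c i j k ∈ R.o)
    (h0 : ∀ i j k, R.z (c i j k) = ten G₀ i j k) : SmCub (cub c) := by
  refine ⟨Rig38.cub_hom c, fun p hp e => by_contra fun hn => ?_⟩
  simp only [not_exists, not_not] at hn
  obtain ⟨i0, hi0⟩ := Function.ne_iff.1 hp
  obtain ⟨i, -, h1, h2⟩ := Red.exists_min (R := R) Finset.univ (a := p) ⟨i0, Finset.mem_univ _, hi0⟩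
  have h3 : ∀ j, (p i)⁻¹ * p j ∈ R.o := fun j => by
    rw [← div_eq_inv_mul]
    exact h2 j (Finset.mem_univ _)
  obtain ⟨q, hu, hd⟩ : ∃ q : MvPolynomial (Fin 6) R.o, R.up q = cub c ∧ R.dn q = G₀ := by
    refine ⟨cub fun i j k => ⟨c i j k, hc i j k⟩, map_cub _ _, (map_cub _ _).trans ?_⟩
    simp only [Red.ζ_apply, h0]
    exact Rig38.cub_ten hG.1
  have key : ∀ (q : MvPolynomial (Fin 6) R.o) (n : ℕ), (R.up q).IsHomogeneous n →
      eval p (R.up q) = 0 → eval (fun j => R.z ((p i)⁻¹ * p j)) (R.dn q) = 0 := fun q n hq e => by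
    rw [← (Red.z_eval h3 q).2, ← coe_aeval_eq_eval, RingHom.coe_coe, Rig38.aeval_hom_mul hq]
    rw [← coe_aeval_eq_eval, RingHom.coe_coe] at e
    rw [e, mul_zero, Red.z_zero]
  have h4 := key q 3 (by rw [hu]; exact Rig38.cub_hom c) (by rw [hu]; exact e)
  rw [hd] at h4
  obtain ⟨l, hl⟩ := hG.2 (fun j => R.z ((p i)⁻¹ * p j)) (fun e => by
    have := congrFun e i
    rw [inv_mul_cancel₀ h1, Red.z_one] at this
    exact one_ne_zero this) h4
  have hu' : R.up (pderiv l q) = pderiv l (cub c) := by rw [← hu]; exact pderiv_map.symm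
  have hd' : R.dn (pderiv l q) = pderiv l G₀ := by rw [← hd]; exact pderiv_map.symm
  have h5 := key (pderiv l q) 2 (by rw [hu']; exact (Rig38.cub_hom c).pderiv)
    (by rw [hu']; exact hn l)
  rw [hd'] at h5
  exact hl h5

/-- the lines of the generic fibre -/
def Dat.lines {Λ : Lines G₀ F L} {G : Pre R P} {h : G.Sm} (D : Dat Λ G h L') (hG : SmCub G₀)
    {c : T3 ℂ} (hc : Sy c) (on : OnL c (pv D.a) (qv D.a)) : Lines (cub c) E L' where
  ι := D.ι
  τ := D.τ
  inv := D.inv
  gen := D.gen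
  dim := D.dim
  a := D.a
  on := (Rig38.onL_iff (Rig38.cub_hom c) D.a).1 (by rwa [Rig38.ten_cub hc])
  fix := D.fix hG

section Od

variable (ν : Valuation L (WithZero (Multiplicative ℤ)))

/-- Hahn series whose coefficients have order `≥ n` -/
def OdH (n : ℕ) : AddSubgroup (Hn L) where
  carrier := {x | ∀ q, ν (x.coeff q) ≤ WithZero.exp (-(n : ℤ))}
  add_mem' hx hy q := (ν.map_add _ _).trans (max_le (hx q) (hy q))
  zero_mem' q := by simp
  neg_mem' hx q := by simpa using hx q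

variable {ν}

theorem OdH_mul {k l : ℕ} {x y : Hn L} (hx : x ∈ OdH ν k) (hy : y ∈ OdH ν l) :
    x * y ∈ OdH ν (k + l) := fun q => by
  rw [HahnSeries.coeff_mul]
  refine ν.map_sum_le fun p _ => ?_
  rw [map_mul, Nat.cast_add, neg_add, WithZero.exp_add]
  exact mul_le_mul' (hx _) (hy _)

theorem OdH_anti {k l : ℕ} (h : k ≤ l) {x : Hn L} (hx : x ∈ OdH ν l) : x ∈ OdH ν k := fun q =>
  (hx q).trans (WithZero.exp_le_exp.2 (by omega))

theorem hm_mem_OdH {K : Type} [Field K] {φ : K →+* L} (h : ∀ f, f ≠ 0 → ν (φ f) = 1) (x : Hn K) :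
    Pui27.hm φ x ∈ OdH ν 0 := fun q => by
  rw [Pui27.coeff_hm]
  by_cases e : x.coeff q = 0
  · simp [e]
  · simp [h _ e]

theorem pu_mem_OdH {n e : ℕ} (he : e ≠ 0) {f : PowerSeries L}
    (h : ∀ d, ν (PowerSeries.coeff d f) ≤ WithZero.exp (-(n : ℤ))) :
    Pui27.pu L e he f ∈ OdH ν n := fun q => by
  by_cases e : (Pui27.pu L e he f).coeff q = 0
  · simp [e]
  · obtain ⟨d, rfl⟩ := Pui27.coeff_pu_ne he e
    rw [Pui27.coeff_pu]
    exact h d

end Od

end Crest.Agent.X262.Deg38
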