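import Crest.Agent.X262.Deg38.Inst
import Crest.Agent.X262.Pui27.Fld

/-!
# Row 262, G4 / DEG (helper38), part 5: the statement on Puiseux series

* `deg` : the cubic and the lines of the geometric generic fibre.
-/

set_option autoImplicit false

open PowerSeries

noncomputable section

namespace Crest.Agent.X262.Deg38

open Crest.Agent.X277 Crest.Agent.X277.Lef
open Crest.Agent.X277.BD.Br (oP)
open Crest.Agent.X262.Top (Lines SmCub)
open Crest.Agent.X262.Alg44 (Red Pre Fam LFam)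
open Crest.Agent.X262.Surf (B2)
open Crest.Agent.X262.Pui27

variable {F E : Type} [Field F] [Algebra ℂ F] [Field E] [Algebra ℂ E]
  {P : PModel ℂ F} {G₀ : MvPolynomial (Fin 6) ℂ} {L : Type} [Field L] [Algebra ℂ L]

/-- the fields of Puiseux series -/
def tw (Λ : Lines G₀ F L) : Tw Λ (PE F) (PE L) where
  RF := red F
  RL := red L
  iF := ie 1 one_ne_zero
  iL := ie 1 one_ne_zero
  t := th 1 one_ne_zero
  p := pm Λ.ι
  s := pm Λ.τ
  co := hs
  iF_O f := ⟨ie_mem _ f, r_ie _ f⟩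
  iL_O f := ⟨ie_mem _ f, r_ie _ f⟩
  iL_map := ie_map _
  p_i := pm_ie _ _
  s_i := pm_ie _ _
  s_s x := hs_injective (HahnSeries.ext (funext fun _ => Λ.inv _))
  p_O x hx := ⟨(pm_mem _).2 hx, r_pm _ x⟩
  s_O x hx := ⟨(pm_mem _).2 hx, r_pm _ x⟩
  co_p x := ⟨_, hs_pm _ x⟩
  co_s := hs_pm _
  co_i := hs_ie _
  co_r x _ := red_r x

/-- **DEG** -/
theorem deg {Λ : Lines G₀ F L} {T : Fam P} (N : LFam T Λ) (j : E →ₐ[ℂ] PE F)
    (G : Pre ((red F).comap j) P) (h : G.Sm) (b : B2 E) (hG : SmCub G₀)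
    (hFS : ∀ f ∈ T.FS 1, ∃ s ∈ (oP (G.gen h)).Sec, j s = ie 1 one_ne_zero f) :
    ∃ (G' : MvPolynomial (Fin 6) ℂ) (L' : Type) (_ : Field L') (_ : Algebra ℂ L'),
      SmCub G' ∧ Nonempty (Lines G' E L') :=
  deg_of (tw Λ) N j G h b hG hFS

end Crest.Agent.X262.Deg38
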